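import Mathlib

/-!
# Bounded Hochschild cochains of a von Neumann algebra with values in the algebra

A cochain is a total function on tuples of operators; only its values on tuples from `M` matter.
-/

namespace Vale.Agent.P082

universe u

/-- A `k`-cochain, as a total function on tuples of operators. -/
abbrev Coch (H : Type u) [NormedAddCommGroup H] [InnerProductSpace ℂ H] (k : ℕ) : Type u :=
  (Fin k → (H →L[ℂ] H)) → (H →L[ℂ] H)

variable {H : Type u} [NormedAddCommGroup H] [InnerProductSpace ℂ H] [CompleteSpace H]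

/-- All entries lie in `M`. -/
def Args (M : VonNeumannAlgebra H) {k : ℕ} (a : Fin k → (H →L[ℂ] H)) : Prop := ∀ i, a i ∈ M

/-- On `M` the cochain is multilinear, has values in `M` and has norm at most `C`. -/
structure IsCochain (M : VonNeumannAlgebra H) {k : ℕ} (f : Coch H k) (C : ℝ) : Prop where
  mem : ∀ a, Args M a → f a ∈ M
  map_add : ∀ a, Args M a → ∀ i, ∀ x ∈ M, ∀ y ∈ M,
    f (Function.update a i (x + y)) = f (Function.update a i x) + f (Function.update a i y)
  map_smul : ∀ a, Args M a → ∀ i, ∀ (c : ℂ), ∀ x ∈ M,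
    f (Function.update a i (c • x)) = c • f (Function.update a i x)
  bound : ∀ a, Args M a → ‖f a‖ ≤ C * ∏ i, ‖a i‖

/-- The Hochschild differential. -/
def hd {k : ℕ} (f : Coch H k) : Coch H (k + 1) := fun a =>
  a 0 * f (Fin.tail a)
    + ∑ j : Fin k, (-1 : ℂ) ^ ((j : ℕ) + 1) • f (Fin.contractNth j.castSucc (· * ·) a)
    + (-1 : ℂ) ^ (k + 1) • (f (Fin.init a) * a (Fin.last k))

/-- Two cochains agree on `M`. -/
def EqOn (M : VonNeumannAlgebra H) {k : ℕ} (f g : Coch H k) : Prop := ∀ a, Args M a → f a = g a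

/-- The differential vanishes on `M`. -/
def IsCocycle (M : VonNeumannAlgebra H) {k : ℕ} (f : Coch H k) : Prop := EqOn M (hd f) 0

/-- Every cocycle in degree `k + 1` with bound `C` is the differential of a cochain with bound
`K * C`. -/
def Vanish (M : VonNeumannAlgebra H) (k : ℕ) (K : ℝ) : Prop :=
  ∀ (f : Coch H (k + 1)) (C : ℝ), 0 ≤ C → IsCochain M f C → IsCocycle M f →
    ∃ h : Coch H k, IsCochain M h (K * C) ∧ EqOn M (hd h) f

/-- The central projection `z` passes through every argument. -/
def IsModular (M : VonNeumannAlgebra H) {k : ℕ} (f : Coch H k) (z : H →L[ℂ] H) : Prop :=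
  ∀ a, Args M a → ∀ i, f (Function.update a i (z * a i)) = z * f a

/-- The element `v` passes from the outside through the arguments. -/
structure IsBimodular (M : VonNeumannAlgebra H) {k : ℕ} (f : Coch H (k + 1))
    (v : H →L[ℂ] H) : Prop where
  left : ∀ a, Args M a → f (Function.update a 0 (v * a 0)) = v * f a
  shift : ∀ a, Args M a → ∀ i : Fin k,
    f (Function.update a i.castSucc (a i.castSucc * v))
      = f (Function.update a i.succ (v * a i.succ))
  right : ∀ a, Args M a →
    f (Function.update a (Fin.last k) (a (Fin.last k) * v)) = f a * v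

/-- The average of `f` over the corners of a finite family of isometries. -/
noncomputable def pull {ι : Type*} [Fintype ι] {k : ℕ} (u : ι → (H →L[ℂ] H))
    (f : Coch H (k + 1)) : Coch H (k + 1) := fun a =>
  (Fintype.card (Fin (k + 2) → ι) : ℂ)⁻¹ •
    ∑ τ : Fin (k + 2) → ι, star (u (τ 0))
      * f (fun i => u (τ i.castSucc) * a i * star (u (τ i.succ))) * u (τ (Fin.last (k + 1)))

/-- A matrix of operators is a contraction. -/
def IsMatContraction {r d : ℕ} (X : Fin r → Fin d → (H →L[ℂ] H)) : Prop :=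
  ∀ e : Fin d → H, ∑ p, ‖∑ q, X p q (e q)‖ ^ 2 ≤ ∑ q, ‖e q‖ ^ 2

/-- The cochain is completely bounded by `C` in its first argument. -/
def CBFirst (M : VonNeumannAlgebra H) {k : ℕ} (f : Coch H (k + 1)) (C : ℝ) : Prop :=
  ∀ y : Fin k → (H →L[ℂ] H), Args M y →
    ∀ (r d : ℕ) (X : Fin r → Fin d → (H →L[ℂ] H)), (∀ p q, X p q ∈ M) → IsMatContraction X →
      ∀ e : Fin d → H, ∑ p, ‖∑ q, f (Fin.cons (X p q) y) (e q)‖ ^ 2
        ≤ (C * ∏ i, ‖y i‖) ^ 2 * ∑ q, ‖e q‖ ^ 2

end Vale.Agent.P082
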