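import Mathlib

/-!
# Hochschild cochains of a Banach algebra with values in itself

`P082` working vocabulary. The hand-in restates these inline or quotes them with their meaning.
-/

namespace Vale.Agent.P082

universe u v

variable {A : Type u} {B : Type v}

/-- Multiply the entries `j` and `j + 1`. -/
def contract [Mul A] {k : ℕ} (j : Fin k) (a : Fin (k + 1) → A) : Fin k → A := fun i =>
  if i < j then a i.castSucc else if i = j then a i.castSucc * a i.succ else a i.succ

/-- The Hochschild differential of a `B`-valued cochain, `A` acting on `B` through `π`. -/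
def dPi [Mul A] [Ring B] (π : A → B) {k : ℕ} (f : (Fin k → A) → B) (a : Fin (k + 1) → A) : B :=
  π (a 0) * f (fun i => a i.succ) + ∑ j : Fin k, (-1 : ℤ) ^ ((j : ℕ) + 1) • f (contract j a)
    + (-1 : ℤ) ^ (k + 1) • (f (fun i => a i.castSucc) * π (a (Fin.last k)))

/-- The Hochschild differential. -/
def dHoch [Ring A] {k : ℕ} (f : (Fin k → A) → A) : (Fin (k + 1) → A) → A := dPi id f

/-- Bounded `k`-linear cochains. -/
abbrev Cochain (A : Type u) [NormedRing A] [NormedAlgebra ℂ A] (k : ℕ) :=
  ContinuousMultilinearMap ℂ (fun _ : Fin k => A) A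

/-- Every bounded cocycle of degree `k + 1` is the coboundary of a bounded cochain of degree `k`. -/
def Vanishes (A : Type u) [NormedRing A] [NormedAlgebra ℂ A] (k : ℕ) : Prop :=
  ∀ f : Cochain A (k + 1), (∀ a, dHoch f a = 0) → ∃ g : Cochain A k, ∀ a, f a = dHoch g a

end Vale.Agent.P082
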